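import Vale.Agent.P192.FP

/-! Gluing a Schreier graph along two isomorphic bounded annuli. -/

namespace Vale.Agent.P196

variable {G X : Type*} [Group G] [MulAction G X] {S : Set G}

/-- Levels changing by at most one along generators, on an invariant set. -/
structure Levels (S : Set G) (O : Set X) (d : X → ℕ) : Prop where
  step : ∀ u, (u ∈ S ∨ u⁻¹ ∈ S) → ∀ y ∈ O, u • y ∈ O ∧ d (u • y) ≤ d y + 1

lemma Levels.both {O : Set X} {d : X → ℕ} (L : Levels S O d) {u : G} (hu : u ∈ S ∨ u⁻¹ ∈ S)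
    {y : X} (hy : y ∈ O) : u • y ∈ O ∧ d (u • y) ≤ d y + 1 ∧ d y ≤ d (u • y) + 1 := by
  obtain ⟨h1, h2⟩ := L.step u hu y hy
  have hu' : u⁻¹ ∈ S ∨ u⁻¹⁻¹ ∈ S := by rw [inv_inv]; exact hu.symm
  exact ⟨h1, h2, by simpa using (L.step _ hu' _ h1).2⟩

/-- The annulus of radius `r` around level `k`. -/
def annulus (O : Set X) (d : X → ℕ) (r k : ℕ) : Set X :=
  {y | y ∈ O ∧ k ≤ d y + r ∧ d y ≤ k + r}

/-- An isomorphism of labelled annuli shifting levels by `l - k`. -/
structure AnnIso (S : Set G) (O : Set X) (d : X → ℕ) (r k l : ℕ) where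
  θ : X → X
  η : X → X
  θ_mem : ∀ y ∈ annulus O d r k, θ y ∈ annulus O d r l
  η_mem : ∀ y ∈ annulus O d r l, η y ∈ annulus O d r k
  ηθ : ∀ y ∈ annulus O d r k, η (θ y) = y
  θη : ∀ y ∈ annulus O d r l, θ (η y) = y
  shift : ∀ y ∈ annulus O d r k, d (θ y) + k = d y + l
  equiv : ∀ u ∈ S, ∀ a ∈ annulus O d r k, ∀ b ∈ annulus O d r k, u • a = b ↔ u • θ a = θ b

variable {O : Set X} {d : X → ℕ} {r k l : ℕ}

lemma AnnIso.equiv_both (I : AnnIso S O d r k l) {u : G} (hu : u ∈ S ∨ u⁻¹ ∈ S) {a b : X}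
    (ha : a ∈ annulus O d r k) (hb : b ∈ annulus O d r k) :
    u • a = b ↔ u • I.θ a = I.θ b := by
  rcases hu with hu | hu
  · exact I.equiv u hu a ha b hb
  · have := I.equiv _ hu b hb a ha
    rw [inv_smul_eq_iff, inv_smul_eq_iff] at this
    exact eq_comm.trans (this.trans eq_comm)

lemma AnnIso.move_θ (I : AnnIso S O d r k l) {u : G} (hu : u ∈ S ∨ u⁻¹ ∈ S) {y : X}
    (hy : y ∈ annulus O d r k) (huy : u • y ∈ annulus O d r k) :
    u • I.θ y = I.θ (u • y) :=
  (I.equiv_both hu hy huy).mp rfl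

lemma AnnIso.move_η (I : AnnIso S O d r k l) {u : G} (hu : u ∈ S ∨ u⁻¹ ∈ S) {y : X}
    (hy : y ∈ annulus O d r l) (huy : u • y ∈ annulus O d r l) :
    u • I.η y = I.η (u • y) := by
  refine (I.equiv_both hu (I.η_mem y hy) (I.η_mem _ huy)).mpr ?_
  rw [I.θη y hy, I.θη _ huy]

/-- The points between the two annuli. -/
def slab (O : Set X) (d : X → ℕ) (k l : ℕ) : Set X := {y | y ∈ O ∧ k ≤ d y ∧ d y < l}

/-- The slightly thickened slab. -/
def tube (O : Set X) (d : X → ℕ) (r k l : ℕ) : Set X :=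
  {y | y ∈ O ∧ k ≤ d y + r ∧ d y < l + r}

open Classical in
/-- Folding the tube onto the slab. -/
noncomputable def AnnIso.fold (I : AnnIso S O d r k l) (y : X) : X :=
  if d y < k then I.θ y else if l ≤ d y then I.η y else y

lemma AnnIso.fold_mem (I : AnnIso S O d r k l) (hkl : k + 2 * r < l) {y : X}
    (hy : y ∈ tube O d r k l) : I.fold y ∈ slab O d k l := by
  obtain ⟨hO, h1, h2⟩ := hy
  simp only [AnnIso.fold]
  split_ifs with ha hb
  · have hA : y ∈ annulus O d r k := ⟨hO, h1, by omega⟩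
    have := I.θ_mem y hA
    have hs := I.shift y hA
    exact ⟨this.1, by omega, by omega⟩
  · have hA : y ∈ annulus O d r l := ⟨hO, by omega, by omega⟩
    have hm := I.η_mem y hA
    have hs := I.shift _ hm
    rw [I.θη y hA] at hs
    exact ⟨hm.1, by omega, by omega⟩
  · exact ⟨hO, by omega, by omega⟩

lemma AnnIso.fold_eq (I : AnnIso S O d r k l) {y : X} (hy : y ∈ slab O d k l) : I.fold y = y := by
  obtain ⟨-, h1, h2⟩ := hy
  simp only [AnnIso.fold]
  rw [if_neg (by omega), if_neg (by omega)]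

lemma AnnIso.fold_step (I : AnnIso S O d r k l) (L : Levels S O d) (hkl : k + 2 * r < l)
    (hr : 1 ≤ r) {u : G} (hu : u ∈ S ∨ u⁻¹ ∈ S) {y : X} (hy : y ∈ tube O d r k l)
    (huy : u • y ∈ tube O d r k l) : I.fold (u • I.fold y) = I.fold (u • y) := by
  obtain ⟨hO, h1, h2⟩ := hy
  obtain ⟨hO', h1', h2'⟩ := huy
  obtain ⟨-, s1, s2⟩ := L.both hu hO
  rcases lt_or_ge (d y) k with ha | ha
  · have hy' : I.fold y = I.θ y := by simp only [AnnIso.fold, if_pos ha]
    have hA : y ∈ annulus O d r k := ⟨hO, h1, by omega⟩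
    have hB : u • y ∈ annulus O d r k := ⟨hO', h1', by omega⟩
    have hs := I.shift _ hB
    have hm := I.θ_mem _ hB
    rw [hy', I.move_θ hu hA hB]
    rcases lt_or_ge (d (u • y)) k with hb | hb
    · have e : I.fold (u • y) = I.θ (u • y) := by simp only [AnnIso.fold, if_pos hb]
      rw [e]; exact I.fold_eq ⟨hm.1, by omega, by omega⟩
    · have e : I.fold (u • y) = u • y := I.fold_eq ⟨hO', hb, by omega⟩
      rw [e]
      simp only [AnnIso.fold]
      rw [if_neg (by omega), if_pos (by omega), I.ηθ _ hB]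
  rcases lt_or_ge (d y) l with hb | hb
  · rw [I.fold_eq ⟨hO, ha, hb⟩]
  · have hy' : I.fold y = I.η y := by
      simp only [AnnIso.fold, if_neg (not_lt.mpr ha), if_pos hb]
    have hA : y ∈ annulus O d r l := ⟨hO, by omega, by omega⟩
    have hB : u • y ∈ annulus O d r l := ⟨hO', by omega, by omega⟩
    have hm := I.η_mem _ hB
    have hs := I.shift _ hm
    rw [I.θη _ hB] at hs
    rw [hy', I.move_η hu hA hB]
    rcases lt_or_ge (d (u • y)) l with hc | hc
    · have e : I.fold (u • y) = u • y := I.fold_eq ⟨hO', by omega, hc⟩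
      rw [e]
      simp only [AnnIso.fold]
      rw [if_pos (by omega), I.θη _ hB]
    · have e : I.fold (u • y) = I.η (u • y) := by
        simp only [AnnIso.fold, if_neg (show ¬ d (u • y) < k by omega), if_pos hc]
      rw [e]; exact I.fold_eq ⟨hm.1, by omega, by omega⟩

lemma slab_move (L : Levels S O d) (hr : 1 ≤ r) {u : G} (hu : u ∈ S ∨ u⁻¹ ∈ S) {y : X}
    (hy : y ∈ slab O d k l) : u • y ∈ tube O d r k l := by
  obtain ⟨hO, h1, h2⟩ := hy
  obtain ⟨ho, s1, s2⟩ := L.both hu hO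
  exact ⟨ho, by omega, by omega⟩

/-- A relator of length at most `r` acts trivially after gluing. -/
lemma glue_finite (I : AnnIso S O d r k l) (L : Levels S O d) (hkl : k + 2 * r < l) (hr : 1 ≤ r)
    (hfin : (slab O d k l).Finite) (R : Set (FreeGroup S))
    (hR : Subgroup.normalClosure R = (FreeGroup.lift (fun s : S => (s : G))).ker)
    (hlen : ∀ w ∈ R, ∃ v : List (S × Bool), v.length ≤ r ∧ FreeGroup.mk v = w)
    (hgen : Function.Surjective (FreeGroup.lift (fun s : S => (s : G))))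
    (hnofi : ∀ H : Subgroup G, H.FiniteIndex → H = ⊤) :
    ∀ s ∈ S, ∀ y ∈ slab O d k l, I.fold (s • y) = y := by
  have : Finite (slab O d k l) := hfin
  have hinv : ∀ {u : G}, (u ∈ S ∨ u⁻¹ ∈ S) → (u⁻¹ ∈ S ∨ u⁻¹⁻¹ ∈ S) := fun h => by
    rw [inv_inv]; exact h.symm
  have hcanc : ∀ u, (u ∈ S ∨ u⁻¹ ∈ S) → ∀ y ∈ slab O d k l,
      I.fold (u⁻¹ • I.fold (u • y)) = y := by
    intro u hu y hy
    have ht := slab_move (r := r) L hr hu hy
    have hy' : u⁻¹ • u • y ∈ tube O d r k l := by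
      rw [inv_smul_smul]; exact ⟨hy.1, by have := hy.2.1; omega, by have := hy.2.2; omega⟩
    rw [I.fold_step L hkl hr (hinv hu) ht hy', inv_smul_smul, I.fold_eq hy]
  let ρ : S → Equiv.Perm (slab O d k l) := fun s =>
    { toFun := fun y => ⟨I.fold ((s : G) • (y : X)),
        I.fold_mem hkl (slab_move L hr (Or.inl s.2) y.2)⟩
      invFun := fun y => ⟨I.fold ((s : G)⁻¹ • (y : X)),
        I.fold_mem hkl (slab_move L hr (hinv (Or.inl s.2)) y.2)⟩
      left_inv := fun y => Subtype.ext (hcanc _ (Or.inl s.2) y y.2)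
      right_inv := fun y => Subtype.ext (by
        simpa using hcanc _ (hinv (Or.inl s.2)) y y.2) }
  let P : FreeGroup S →* Equiv.Perm (slab O d k l) := FreeGroup.lift ρ
  let ev : FreeGroup S →* G := FreeGroup.lift (fun s : S => (s : G))
  have hword : ∀ v : List (S × Bool), v.length ≤ r → ∀ y : slab O d k l,
      ev (FreeGroup.mk v) • (y : X) ∈ O ∧
      k ≤ d (ev (FreeGroup.mk v) • (y : X)) + v.length ∧
      d (ev (FreeGroup.mk v) • (y : X)) < l + v.length ∧
      ((P (FreeGroup.mk v) y : slab O d k l) : X) = I.fold (ev (FreeGroup.mk v) • (y : X)) := by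
    intro v
    induction v with
    | nil =>
      intro _ y
      rw [← FreeGroup.one_eq_mk, map_one, map_one, one_smul, Equiv.Perm.one_apply, I.fold_eq y.2]
      exact ⟨y.2.1, by simpa using y.2.2.1, by simpa using y.2.2.2, rfl⟩
    | cons a v ih =>
      intro hlen y
      rw [List.length_cons] at hlen
      obtain ⟨h0, h1, h2, h3⟩ := ih (by omega) y
      have hsplit : FreeGroup.mk (a :: v) = FreeGroup.mk [a] * FreeGroup.mk v := by
        rw [FreeGroup.mul_mk]; rfl
      obtain ⟨s, b⟩ := a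
      let u : G := cond b (s : G) (s : G)⁻¹
      have hu : u ∈ S ∨ u⁻¹ ∈ S := by cases b <;> simp [u]
      have hev : ev (FreeGroup.mk [(s, b)]) = u := by cases b <;> simp [ev, u]
      have hP : ∀ z : slab O d k l,
          ((P (FreeGroup.mk [(s, b)]) z : slab O d k l) : X) = I.fold (u • (z : X)) := by
        intro z; cases b <;> simp [P, u, ρ] <;> rfl
      obtain ⟨g1, g2, g3⟩ := L.both hu h0
      rw [hsplit, map_mul, map_mul, mul_smul, hev, Equiv.Perm.mul_apply, List.length_cons]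
      refine ⟨g1, by omega, by omega, ?_⟩
      rw [hP, h3]
      exact I.fold_step L hkl hr hu ⟨h0, by omega, by omega⟩ ⟨g1, by omega, by omega⟩
  have hker : ev.ker ≤ P.ker := by
    rw [← hR]
    refine Subgroup.normalClosure_le_normal fun w hw => ?_
    obtain ⟨v, hv, rfl⟩ := hlen w hw
    have h1 : ev (FreeGroup.mk v) = 1 := by
      have : FreeGroup.mk v ∈ ev.ker := hR ▸ Subgroup.subset_normalClosure hw
      exact this
    refine Equiv.ext fun y => Subtype.ext ?_
    rw [(hword v hv y).2.2.2, h1, one_smul, I.fold_eq y.2]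
    rfl
  let Φ : G →* Equiv.Perm (slab O d k l) :=
    MonoidHom.liftOfSurjective ev hgen ⟨P, hker⟩
  have hΦ : Φ.ker = ⊤ := hnofi _ inferInstance
  intro s hs y hy
  have h1 : Φ (ev (FreeGroup.of ⟨s, hs⟩)) = P (FreeGroup.of ⟨s, hs⟩) :=
    MonoidHom.liftOfRightInverse_comp_apply _ _ _ ⟨P, hker⟩ _
  have h2 : Φ (ev (FreeGroup.of ⟨s, hs⟩)) = 1 := by
    rw [← MonoidHom.mem_ker, hΦ]; trivial
  have h3 := congrArg (fun p : Equiv.Perm (slab O d k l) => (p ⟨y, hy⟩ : X)) (h1.symm.trans h2)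
  simpa [P, ρ] using h3

end Vale.Agent.P196
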