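import Vale.Agent.P196.Glue

/-! Orbits of linear growth give proper finite-index subgroups of finitely presented groups. -/

namespace Vale.Agent.P196

open Finset

variable {G X : Type*} [Group G] [MulAction G X]

/-- The ball of radius `n` around `x`. -/
def ball (S : Set G) (x : X) (n : ℕ) : Set X :=
  {y | ∃ l : List G, l.length ≤ n ∧ (∀ g ∈ l, g ∈ S ∨ g⁻¹ ∈ S) ∧ l.prod • x = y}

lemma ball_finite {S : Set G} (hS : S.Finite) (x : X) (n : ℕ) : (ball S x n).Finite := by
  let A : Set G := S ∪ (fun g => g⁻¹) '' S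
  have : Finite A := hS.union (hS.image _)
  have hL : {l : List A | l.length ≤ n}.Finite := List.finite_length_le A n
  refine (hL.image (fun l => (l.map Subtype.val).prod • x)).subset ?_
  rintro y ⟨l, hl, hlS, rfl⟩
  have hA : ∀ g ∈ l, g ∈ A := fun g hg => by
    rcases hlS g hg with h | h
    · exact Or.inl h
    · exact Or.inr ⟨g⁻¹, h, inv_inv g⟩
  exact ⟨l.attach.map fun g => ⟨g.1, hA g.1 g.2⟩, by simpa using hl, by simp [Function.comp_def]⟩

/-- Levels and growth: a point with linearly growing orbit balls is fixed. -/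
theorem fixed_of_linear_growth [hfp : Group.IsFinitelyPresented G]
    (hnofi : ∀ H : Subgroup G, H.FiniteIndex → H = ⊤) (S : Finset G)
    (hS : Subgroup.closure (S : Set G) = ⊤) (x : X) (C : ℕ)
    (hgrowth : ∀ N : ℕ, ∃ n, N ≤ n ∧ (ball (S : Set G) x n).ncard ≤ C * n) :
    ∀ g : G, g • x = x := by
  classical
  let O : Set X := {y | ∃ n, y ∈ ball (S : Set G) x n}
  let d : X → ℕ := fun y => sInf {n | y ∈ ball (S : Set G) x n}
  have hd : ∀ y ∈ O, y ∈ ball (S : Set G) x (d y) := fun y hy => Nat.sInf_mem hy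
  have L : Levels (S : Set G) O d := by
    constructor
    intro u hu y hy
    obtain ⟨l, hl, hlS, e⟩ := hd y hy
    have h : u • y ∈ ball (S : Set G) x (d y + 1) :=
      ⟨u :: l, by simpa using hl, fun g hg => by
        rcases List.mem_cons.mp hg with rfl | hg
        · exact hu
        · exact hlS g hg, by rw [List.prod_cons, mul_smul, e]⟩
    exact ⟨⟨_, h⟩, Nat.sInf_le h⟩
  have hxO : x ∈ O := ⟨0, [], le_rfl, by simp, by simp⟩
  have hinvariant : ∀ g : G, ∀ y ∈ O, g • y ∈ O := by
    intro g
    have hg : g ∈ Subgroup.closure (S : Set G) := hS ▸ Subgroup.mem_top g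
    induction hg using Subgroup.closure_induction_left with
    | one => intro y hy; rwa [one_smul]
    | mul_left a ha b hb ih =>
      intro y hy; rw [mul_smul]; exact (L.step a (Or.inl ha) _ (ih y hy)).1
    | inv_mul_cancel a ha b hb ih =>
      intro y hy; rw [mul_smul]; exact (L.step _ (Or.inr (by simpa using ha)) _ (ih y hy)).1
  by_cases hOfin : O.Finite
  · have : Finite (MulAction.orbit G x) := by
      refine (hOfin.subset ?_).to_subtype
      rintro y ⟨g, rfl⟩; exact hinvariant g x hxO
    have hfi : (MulAction.stabilizer G x).FiniteIndex := ⟨by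
      have : Nonempty (MulAction.orbit G x) := ⟨⟨x, MulAction.mem_orbit_self x⟩⟩
      rw [Subgroup.index, ← Nat.card_congr (MulAction.orbitEquivQuotientStabilizer G x)]
      exact Nat.card_pos.ne'⟩
    intro g
    have : g ∈ MulAction.stabilizer G x := by rw [hnofi _ hfi]; trivial
    exact this
  exfalso
  -- every level is occupied by a point with a successor
  have hstep : ∀ k, ∃ y ∈ O, ∃ u, (u ∈ (S : Set G) ∨ u⁻¹ ∈ (S : Set G)) ∧ d y = k ∧
      d (u • y) = k + 1 := by
    intro k
    have hbig : ∃ z ∈ O, k < d z := by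
      by_contra! h
      refine hOfin ((ball_finite S.finite_toSet x k).subset fun z hz => ?_)
      obtain ⟨l, hl, hlS, e⟩ := hd z hz
      exact ⟨l, hl.trans (h z hz), hlS, e⟩
    obtain ⟨z, hz, hkz⟩ := hbig
    have hpred : ∀ z ∈ O, 0 < d z → ∃ y ∈ O, ∃ u, (u ∈ (S : Set G) ∨ u⁻¹ ∈ (S : Set G)) ∧
        u • y = z ∧ d y + 1 = d z := by
      intro z hz hpos
      obtain ⟨l, hl, hlS, e⟩ := hd z hz
      cases l with
      | nil =>
        simp only [List.prod_nil, one_smul] at e
        subst e
        have : d x ≤ 0 := Nat.sInf_le ⟨[], le_rfl, by simp, by simp⟩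
        omega
      | cons u l =>
        rw [List.length_cons] at hl
        rw [List.prod_cons, mul_smul] at e
        have hy : l.prod • x ∈ ball (S : Set G) x (d z - 1) :=
          ⟨l, by omega, fun g hg => hlS g (List.mem_cons_of_mem _ hg), rfl⟩
        have h1 : d (l.prod • x) ≤ d z - 1 := Nat.sInf_le hy
        have h2 := (L.step u (hlS u (by simp)) _ ⟨_, hy⟩).2
        rw [e] at h2
        exact ⟨_, ⟨_, hy⟩, u, hlS u (by simp), e, by omega⟩
    suffices h : ∀ j, ∀ z ∈ O, d z = k + 1 + j → ∃ y ∈ O, ∃ u,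
        (u ∈ (S : Set G) ∨ u⁻¹ ∈ (S : Set G)) ∧ d y = k ∧ d (u • y) = k + 1 from
      h (d z - (k + 1)) z hz (by omega)
    intro j
    induction j with
    | zero =>
      intro z hz hdz
      obtain ⟨y, hy, u, hu, e, hdy⟩ := hpred z hz (by omega)
      exact ⟨y, hy, u, hu, by omega, by rw [e]; omega⟩
    | succ j ih =>
      intro z hz hdz
      obtain ⟨y, hy, u, hu, e, hdy⟩ := hpred z hz (by omega)
      exact ih y hy (by omega)
  -- presentation
  let ev : FreeGroup (S : Set G) →* G := FreeGroup.lift (fun s : (S : Set G) => (s : G))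
  have hev : Function.Surjective ev := by
    rw [← MonoidHom.range_eq_top, eq_top_iff, ← hS, Subgroup.closure_le]
    intro s hs
    exact ⟨FreeGroup.of ⟨s, hs⟩, by simp [ev]⟩
  have : Finite (S : Set G) := S.finite_toSet
  obtain ⟨R, hRfin, hR⟩ := Vale.Agent.P192.ker_fng ev hev
  let r := hRfin.toFinset.sup (fun w => w.toWord.length) + 1
  have hlen : ∀ w ∈ R, ∃ v : List (↥(S : Set G) × Bool), v.length ≤ r ∧ FreeGroup.mk v = w :=
    fun w hw => ⟨w.toWord, le_trans (Finset.le_sup (f := fun w => w.toWord.length)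
      (hRfin.mem_toFinset.mpr hw)) (Nat.le_succ _), FreeGroup.mk_toWord⟩
  -- infinitely many narrow annuli
  let A : ℕ → Set X := fun k => annulus O d r k
  have hAball : ∀ k, A k ⊆ ball (S : Set G) x (k + r) := by
    rintro k y ⟨hy, -, h⟩
    obtain ⟨l, hl, hlS, e⟩ := hd y hy
    exact ⟨l, hl.trans h, hlS, e⟩
  have hAfin : ∀ k, (A k).Finite := fun k => (ball_finite S.finite_toSet x _).subset (hAball k)
  let M := (2 * r + 1) * (C + 1)
  have hnarrow : {k | (A k).ncard ≤ M}.Infinite := by
    intro hfinset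
    obtain ⟨k0, hk0⟩ := hfinset.bddAbove
    obtain ⟨n, hn, hball⟩ := hgrowth ((C + 1) * (k0 + r + 2) + 1)
    have hn' : k0 + r + 2 ≤ n := by nlinarith
    let B := (ball_finite S.finite_toSet x n).toFinset
    have hB : B.card ≤ C * n := by
      rwa [← Set.ncard_eq_toFinset_card _ (ball_finite S.finite_toSet x n)]
    let I := Finset.Icc (k0 + 1) (n - r)
    have hlow : I.card * (M + 1) ≤ ∑ k ∈ I, (A k).ncard := by
      rw [← smul_eq_mul]
      refine Finset.card_nsmul_le_sum _ _ _ fun k hk => ?_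
      by_contra h
      have := hk0 (show (A k).ncard ≤ M by omega)
      have := (Finset.mem_Icc.mp hk).1
      omega
    have hA' : ∀ k ∈ I, (A k).ncard ≤ (B.filter fun y => k ≤ d y + r ∧ d y ≤ k + r).card := by
      intro k hk
      rw [← Set.ncard_coe_finset]
      refine Set.ncard_le_ncard ?_ (Finset.finite_toSet _)
      intro y hy
      have h1 := hAball k hy
      have hk' := (Finset.mem_Icc.mp hk).2
      obtain ⟨l, hl, hlS, e⟩ := h1
      simp only [Finset.coe_filter, Set.mem_ofPred_eq, B, Set.Finite.mem_toFinset]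
      exact ⟨⟨l, by omega, hlS, e⟩, hy.2⟩
    have hup : ∑ k ∈ I, (A k).ncard ≤ (2 * r + 1) * B.card := by
      refine (Finset.sum_le_sum hA').trans ?_
      simp only [Finset.card_filter]
      rw [Finset.sum_comm, mul_comm (2 * r + 1), ← smul_eq_mul]
      refine Finset.sum_le_card_nsmul _ _ _ fun y _ => ?_
      rw [← Finset.card_filter]
      refine (Finset.card_le_card (t := Finset.Icc (d y - r) (d y + r)) ?_).trans ?_
      · intro k hk
        obtain ⟨-, h1, h2⟩ := Finset.mem_filter.mp hk
        exact Finset.mem_Icc.mpr ⟨by omega, by omega⟩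
      · rw [Nat.card_Icc]; omega
    have hI : I.card + (k0 + r) = n := by simp only [I, Nat.card_Icc]; omega
    simp only [M] at hlow
    have h1 : (2 * r + 1) * (I.card * (C + 1)) ≤ (2 * r + 1) * (C * n) := by
      have := Nat.mul_le_mul_left (2 * r + 1) hB
      rw [Nat.mul_add, mul_one] at hlow
      rw [show (2 * r + 1) * (I.card * (C + 1)) = I.card * ((2 * r + 1) * (C + 1)) by ring]
      omega
    have h2 := Nat.le_of_mul_le_mul_left h1 (by omega)
    nlinarith
  -- labelled patterns of narrow annuli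
  have hemb : ∀ k : {k | (A k).ncard ≤ M}, ∃ e : X → Fin (M + 1), Set.InjOn e (A k.1) := by
    rintro ⟨k, hk⟩
    obtain ⟨σ⟩ : Nonempty ((hAfin k).toFinset ↪ Fin (M + 1)) :=
      Function.Embedding.nonempty_of_card_le (by
        have := Set.ncard_eq_toFinset_card _ (hAfin k)
        simp only [Set.mem_ofPred_eq] at hk
        simp; omega)
    refine ⟨fun y => if h : y ∈ A k then σ ⟨y, (hAfin k).mem_toFinset.mpr h⟩ else 0, ?_⟩
    intro a ha b hb hab
    simp only [dif_pos ha, dif_pos hb] at hab
    simpa using σ.injective hab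
  choose e he using hemb
  let pat : {k | (A k).ncard ≤ M} → (Fin (M + 1) → Fin (2 * r + 1) → Prop) ×
      (↥(S : Set G) → Fin (M + 1) → Fin (M + 1) → Prop) := fun k =>
    (fun i o => ∃ y ∈ A k.1, e k y = i ∧ d y + r = k.1 + o,
     fun s i j => ∃ a ∈ A k.1, ∃ b ∈ A k.1, e k a = i ∧ e k b = j ∧ (s : G) • a = b)
  have : Infinite {k | (A k).ncard ≤ M} := hnarrow.to_subtype
  obtain ⟨p, hp⟩ := Finite.exists_infinite_fiber pat
  obtain ⟨⟨⟨k, hk⟩, hpk⟩⟩ : Nonempty (pat ⁻¹' {p}) := inferInstance
  have hinf : ((fun q : {k | (A k).ncard ≤ M} => q.1) '' (pat ⁻¹' {p})).Infinite :=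
    (Set.infinite_coe_iff.mp hp).image Subtype.val_injective.injOn
  obtain ⟨l, ⟨⟨l', hl⟩, hpl, rfl⟩, hkl⟩ := hinf.exists_gt (k + 2 * r)
  simp only at hkl
  have heq : pat ⟨k, hk⟩ = pat ⟨l', hl⟩ := (Set.mem_singleton_iff.mp hpk).trans
    (Set.mem_singleton_iff.mp hpl).symm
  let K : {k | (A k).ncard ≤ M} := ⟨k, hk⟩
  let K' : {k | (A k).ncard ≤ M} := ⟨l', hl⟩
  have htrans : ∀ (P Q : {k | (A k).ncard ≤ M}), pat P = pat Q → ∀ y ∈ A P.1,
      ∃ z ∈ A Q.1, e Q z = e P y ∧ d z + P.1 = d y + Q.1 := by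
    intro P Q hPQ y hy
    have hy' : y ∈ A P.1 := hy
    obtain ⟨-, h1, h2⟩ := hy
    have h3 : (pat P).1 (e P y) ⟨d y + r - P.1, by omega⟩ :=
      ⟨y, hy', rfl, by simp; omega⟩
    rw [hPQ] at h3
    obtain ⟨z, hz, hez, hdz⟩ := h3
    exact ⟨z, hz, hez, by simp at hdz; omega⟩
  choose θ hθm hθe hθd using htrans K K' heq
  choose η hηm hηe hηd using htrans K' K heq.symm
  let I : AnnIso (S : Set G) O d r k l' :=
    { θ := fun y => if h : y ∈ A k then θ y h else y
      η := fun y => if h : y ∈ A l' then η y h else y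
      θ_mem := fun y hy => by rw [dif_pos hy]; exact hθm y hy
      η_mem := fun y hy => by rw [dif_pos hy]; exact hηm y hy
      ηθ := fun y hy => by
        rw [dif_pos hy, dif_pos (hθm y hy)]
        exact he K (hηm _ (hθm y hy)) hy ((hηe _ _).trans (hθe y hy))
      θη := fun y hy => by
        rw [dif_pos hy, dif_pos (hηm y hy)]
        exact he K' (hθm _ (hηm y hy)) hy ((hθe _ _).trans (hηe y hy))
      shift := fun y hy => by rw [dif_pos hy]; exact hθd y hy
      equiv := fun u hu a ha b hb => by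
        rw [dif_pos ha, dif_pos hb]
        constructor
        · intro hab
          have h3 : (pat K).2 ⟨u, hu⟩ (e K a) (e K b) := ⟨a, ha, b, hb, rfl, rfl, hab⟩
          rw [heq] at h3
          obtain ⟨a', ha', b', hb', ea, eb, h⟩ := h3
          rw [he K' (hθm a ha) ha' ((hθe a ha).trans ea.symm),
            he K' (hθm b hb) hb' ((hθe b hb).trans eb.symm)]
          exact h
        · intro hab
          have h3 : (pat K').2 ⟨u, hu⟩ (e K' (θ a ha)) (e K' (θ b hb)) :=
            ⟨_, hθm a ha, _, hθm b hb, rfl, rfl, hab⟩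
          rw [← heq, hθe a ha, hθe b hb] at h3
          obtain ⟨a', ha', b', hb', ea, eb, h⟩ := h3
          rw [he K ha ha' ea.symm, he K hb hb' eb.symm]
          exact h }
  have hfin : (slab O d k l').Finite := (ball_finite S.finite_toSet x l').subset fun y hy => by
    obtain ⟨w, hw, hwS, ew⟩ := hd y hy.1
    exact ⟨w, by have := hy.2.2; omega, hwS, ew⟩
  have htriv := glue_finite I L hkl (Nat.le_add_left 1 _) hfin R hR hlen hev hnofi
  obtain ⟨y, hy, u, hu, hdy, hduy⟩ := hstep k
  have hyY : y ∈ slab O d k l' := ⟨hy, by omega, by omega⟩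
  have huY : u • y ∈ slab O d k l' := ⟨(L.step u hu y hy).1, by omega, by omega⟩
  have huy : u • y = y := by
    rcases hu with hu | hu
    · have := htriv u hu y hyY; rwa [I.fold_eq huY] at this
    · have := htriv u⁻¹ hu _ huY
      rw [inv_smul_smul, I.fold_eq hyY] at this
      exact this.symm
  rw [huy] at hduy; omega

/-- An infinite simple group has no proper subgroup of finite index. -/
lemma simple_no_fi [IsSimpleGroup G] [Infinite G] (H : Subgroup G) (hH : H.FiniteIndex) :
    H = ⊤ := by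
  rcases (Subgroup.normalCore_normal H).eq_bot_or_eq_top with h | h
  · exfalso
    have : (H.normalCore).FiniteIndex := inferInstance
    rw [h] at this
    have h2 := this.index_ne_zero
    rw [Subgroup.index_bot, Nat.card_eq_zero_of_infinite] at h2
    exact h2 rfl
  · exact top_le_iff.mp (h ▸ H.normalCore_le)

/-- No nontrivial action by bounded powers of one bijection. -/
theorem bounded_powers [Group.IsFinitelyPresented G]
    (hnofi : ∀ H : Subgroup G, H.FiniteIndex → H = ⊤) (T : Equiv.Perm X)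
    (hT : ∀ g : G, ∃ N : ℕ, ∀ y : X, ∃ j : ℤ, j.natAbs ≤ N ∧ g • y = (T ^ j) y) :
    ∀ (g : G) (y : X), g • y = y := by
  classical
  intro g x
  obtain ⟨n, φ, hφ, -⟩ := ‹Group.IsFinitelyPresented G›.out
  let S : Finset G := Finset.univ.image fun i => φ (FreeGroup.of i)
  have hS : Subgroup.closure (S : Set G) = ⊤ := by
    have : (S : Set G) = φ '' Set.range FreeGroup.of := by
      simp [S, ← Set.range_comp]; rfl
    rw [this, ← MonoidHom.map_closure, FreeGroup.closure_range_of,
      Subgroup.map_top_of_surjective _ hφ]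
  choose N hN using hT
  let B := S.sup (fun s => max (N s) (N s⁻¹))
  have hword : ∀ l : List G, (∀ u ∈ l, u ∈ (S : Set G) ∨ u⁻¹ ∈ (S : Set G)) →
      ∃ j : ℤ, j.natAbs ≤ l.length * B ∧ l.prod • x = (T ^ j) x := by
    intro l
    induction l with
    | nil => exact fun _ => ⟨0, by simp, by simp⟩
    | cons u l ih =>
      intro h
      obtain ⟨j, hj, e⟩ := ih fun w hw => h w (List.mem_cons_of_mem _ hw)
      obtain ⟨i, hi, e'⟩ := hN u (l.prod • x)
      have hu : N u ≤ B := by
        rcases h u (by simp) with hu | hu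
        · exact le_trans (le_max_left _ (N u⁻¹)) (Finset.le_sup (f := fun s => max (N s) (N s⁻¹)) hu)
        · have := Finset.le_sup (f := fun s => max (N s) (N s⁻¹)) hu
          simp only [inv_inv] at this
          exact le_trans (le_max_right _ _) this
      refine ⟨i + j, ?_, ?_⟩
      · rw [List.length_cons, Nat.succ_mul]
        exact (Int.natAbs_add_le i j).trans (by omega)
      · rw [List.prod_cons, mul_smul, e', e, zpow_add, Equiv.Perm.mul_apply]
  refine fixed_of_linear_growth hnofi S hS x (2 * B + 1) (fun k => ⟨k + 1, by omega, ?_⟩) g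
  have hsub : ball (S : Set G) x (k + 1) ⊆
      (fun j : ℤ => (T ^ j) x) '' (Finset.Icc (-(((k + 1) * B : ℕ) : ℤ)) (((k + 1) * B : ℕ) : ℤ) : Set ℤ) := by
    rintro y ⟨l, hl, hlS, rfl⟩
    obtain ⟨j, hj, e⟩ := hword l hlS
    have : l.length * B ≤ (k + 1) * B := Nat.mul_le_mul_right _ hl
    exact ⟨j, by simp only [Finset.coe_Icc, Set.mem_Icc]; omega, e.symm⟩
  refine (Set.ncard_le_ncard hsub ((Finset.finite_toSet _).image _)).trans ?_
  refine (Set.ncard_image_le (Finset.finite_toSet _)).trans ?_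
  rw [Set.ncard_coe_finset, Int.card_Icc]
  have : ((k + 1) * (2 * B + 1) : ℕ) = 2 * ((k + 1) * B) + (k + 1) := by ring
  rw [mul_comm (2 * B + 1)]
  omega

end Vale.Agent.P196
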